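import Mathlib

/-! # P027, route M, block B2 : the lattice lemma -/

namespace Vale.Agent.P027M.B2

open Complex

/-- the action of a Gaussian integer through `ι` -/
def gs {H : Type*} [AddCommGroup H] (ι : H →+ H) (c : GaussianInt) (y : H) : H :=
  c.re • y + c.im • ι y

theorem gs_comm {H H' : Type*} [AddCommGroup H] [AddCommGroup H'] {ι : H →+ H} {ι' : H' →+ H'}
    (f : H →+ H') (c : GaussianInt) {y : H} (h : f (ι y) = ι' (f y)) :
    f (gs ι c y) = gs ι' c (f y) := by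
  simp only [gs, map_add, map_zsmul, h]

/-- `ℂ × ℂ` as a module over the Gaussian integers -/
@[reducible] noncomputable def modG : Module GaussianInt (ℂ × ℂ) :=
  Module.compHom _ GaussianInt.toComplex

attribute [local instance] modG

theorem smulG (c : GaussianInt) (v : ℂ × ℂ) : c • v = (c : ℂ) • v := rfl

theorem rankG : Module.Free ℤ GaussianInt ∧ Module.finrank ℤ GaussianInt = 2 := by
  let b : Module.Basis (Fin 2) ℤ GaussianInt := Module.Basis.ofEquivFun
    { toFun := fun z => ![z.re, z.im]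
      invFun := fun v => ⟨v 0, v 1⟩
      map_add' := fun a b => by ext j; fin_cases j <;> simp
      map_smul' := fun n a => by ext j; fin_cases j <;> simp
      left_inv := fun z => rfl
      right_inv := fun v => by ext j; fin_cases j <;> rfl }
  exact ⟨Module.Free.of_basis b, by rw [Module.finrank_eq_card_basis b, Fintype.card_fin]⟩

theorem tfG : Module.IsTorsionFree GaussianInt (ℂ × ℂ) :=
  Module.IsTorsionFree.of_smul_eq_zero fun c v h => by
    rw [smulG, smul_eq_zero] at h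
    exact h.imp_left fun h => GaussianInt.toComplex_eq_zero.1 h

theorem rank2 (L : Submodule GaussianInt (ℂ × ℂ)) {ε : ℝ} (hε : 0 < ε)
    (disc : ∀ v ∈ L, ‖v‖ < ε → v = 0) (span : Submodule.span ℝ (L : Set (ℂ × ℂ)) = ⊤) :
    Module.Finite GaussianInt L ∧ Module.finrank GaussianInt L = 2 := by
  have := tfG
  have := rankG.1
  have hd : DiscreteTopology (L.restrictScalars ℤ) := by
    refine discreteTopology_of_isOpen_singleton_zero ?_
    have : ({0} : Set (L.restrictScalars ℤ)) = Subtype.val ⁻¹' Metric.ball 0 ε := by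
      ext v
      simp only [Set.mem_singleton_iff, Set.mem_preimage, mem_ball_zero_iff]
      exact ⟨fun h => by rw [h]; simpa using hε, fun h => Subtype.ext (disc _ v.2 h)⟩
    rw [this]
    exact Metric.isOpen_ball.preimage continuous_subtype_val
  have hz : IsZLattice ℝ (L.restrictScalars ℤ) := ⟨span⟩
  let e := (Submodule.restrictScalarsEquiv ℤ GaussianInt (ℂ × ℂ) L).restrictScalars ℤ
  have hf : Module.Finite ℤ L :=
    @Module.Finite.equiv _ _ _ _ _ _ _ _ (ZLattice.module_finite ℝ _) e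
  have hf' : Module.Finite GaussianInt L := Module.Finite.of_restrictScalars_finite ℤ _ _
  refine ⟨hf', ?_⟩
  have h1 := ZLattice.rank ℝ (L.restrictScalars ℤ)
  rw [e.finrank_eq, ← Module.finrank_mul_finrank ℤ GaussianInt L, rankG.2, Module.finrank_prod,
    Complex.finrank_real_complex] at h1
  omega

theorem lat {H S : Type*} [AddCommGroup H] (ι : H →+ H) (ex : ℂ × ℂ →+ H) (a : S → H →+ H)
    (Pi : AddSubgroup (ℂ × ℂ)) (M K0 : ℕ) (hI : ∀ v, ex (I • v) = ι (ex v))
    (disc : ∃ ε > 0, ∀ v, ‖v‖ < ε → ex v = 0 → v = 0) (piI : ∀ v ∈ Pi, I • v ∈ Pi)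
    (span : Submodule.span ℝ (Pi : Set (ℂ × ℂ)) = ⊤) (hM : M ≠ 0)
    (fin : ∀ v ∈ Pi, ex ((M : ℂ) • v) = 0) (aι : ∀ s y, a s (ι y) = ι (a s y))
    (stab : ∀ m : ℕ, m ≠ 0 → ∀ s, ∀ v ∈ Pi, ∃ v' ∈ Pi,
      a s (ex ((m : ℂ)⁻¹ • v)) = ex ((m : ℂ)⁻¹ • v'))
    (cyc : ∀ v, (∃ n : ℕ, n ≠ 0 ∧ n • ex v = 0) → (∀ s, ∃ c, a s (ex v) = gs ι c (ex v)) →
      K0 • ex v = 0) :
    ∃ x y : ℚ, (x ≠ 0 ∨ y ≠ 0) ∧ (∀ v ∈ Pi, ex (((x : ℂ) + y * I) • v) = 0) ∧
      ∀ v, ex v = 0 → ∃ v' ∈ Pi, (K0 : ℂ) • v = ((x : ℂ) + y * I) • v' := by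
  obtain ⟨ε, hε, disc⟩ := disc
  have := tfG
  have exG : ∀ (c : GaussianInt) v, ex ((c : ℂ) • v) = gs ι c (ex v) := fun c v => by
    rw [GaussianInt.toComplex_def, add_smul, mul_smul, map_add, Int.cast_smul_eq_zsmul,
      Int.cast_smul_eq_zsmul, map_zsmul, map_zsmul, hI, gs]
  have piG : ∀ (c : GaussianInt), ∀ v ∈ Pi, (c : ℂ) • v ∈ Pi := fun c v hv => by
    rw [GaussianInt.toComplex_def, add_smul, mul_smul, Int.cast_smul_eq_zsmul,
      Int.cast_smul_eq_zsmul]
    exact Pi.add_mem (Pi.zsmul_mem hv _) (Pi.zsmul_mem (piI v hv) _)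
  have hMC : (M : ℂ) ≠ 0 := Nat.cast_ne_zero.2 hM
  let L1 : Submodule GaussianInt (ℂ × ℂ) :=
    { carrier := {v | ex v = 0}
      add_mem' := fun {u v} hu hv => by
        simp only [Set.mem_ofPred_eq] at hu hv ⊢
        rw [map_add, hu, hv, add_zero]
      zero_mem' := ex.map_zero
      smul_mem' := fun c v hv => by
        simp only [Set.mem_ofPred_eq] at hv ⊢
        rw [smulG, exG, hv, gs, map_zero, smul_zero, smul_zero, add_zero] }
  let L2 : Submodule GaussianInt (ℂ × ℂ) :=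
    { carrier := {v | (M : ℂ)⁻¹ • v ∈ Pi}
      add_mem' := fun {u v} hu hv => by
        simp only [Set.mem_ofPred_eq] at hu hv ⊢
        rw [smul_add]; exact Pi.add_mem hu hv
      zero_mem' := by simp only [Set.mem_ofPred_eq, smul_zero]; exact Pi.zero_mem
      smul_mem' := fun c v hv => by
        simp only [Set.mem_ofPred_eq] at hv ⊢
        rw [smulG, smul_comm]; exact piG c _ hv }
  have m2 : ∀ v ∈ Pi, (M : ℂ) • v ∈ L2 := fun v hv => by
    show (M : ℂ)⁻¹ • (M : ℂ) • v ∈ Pi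
    rwa [inv_smul_smul₀ hMC]
  have le : L2 ≤ L1 := fun v hv => by
    have := fin _ hv
    rwa [smul_inv_smul₀ hMC] at this
  have sp2 : Submodule.span ℝ (L2 : Set (ℂ × ℂ)) = ⊤ := by
    rw [eq_top_iff, ← span, Submodule.span_le]
    intro v hv
    have h1 : v = (M : ℝ)⁻¹ • (M : ℂ) • v := by
      rw [← Complex.coe_smul, Complex.ofReal_inv, Complex.ofReal_natCast, inv_smul_smul₀ hMC]
    rw [h1]
    exact Submodule.smul_mem _ _ (Submodule.subset_span (m2 v hv))
  obtain ⟨f1, r1⟩ := rank2 L1 hε (fun v hv h => disc v h hv)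
    (by rw [eq_top_iff, ← sp2]; exact Submodule.span_mono le)
  obtain ⟨f2, r2⟩ := rank2 L2 hε (fun v hv h => disc v h (le hv)) sp2
  obtain ⟨B, al, B2, hB⟩ := (L2.comap L1.subtype).exists_smith_normal_form_of_rank_eq
    (Module.finBasisOfFinrankEq GaussianInt L1 r1)
    (by rw [r1, ← r2]; exact (Submodule.comapSubtypeEquivOfLe le).finrank_eq)
  have al0 : ∀ j, al j ≠ 0 := fun j h => B2.ne_zero j (Subtype.ext (by rw [hB, h, zero_smul]; rfl))
  obtain ⟨a', b', ha, hb, hco⟩ : ∃ a' b', al 0 = EuclideanDomain.gcd (al 0) (al 1) * a' ∧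
      al 1 = EuclideanDomain.gcd (al 0) (al 1) * b' ∧ IsCoprime a' b' := by
    obtain ⟨a', ha⟩ := EuclideanDomain.gcd_dvd_left (al 0) (al 1)
    obtain ⟨b', hb⟩ := EuclideanDomain.gcd_dvd_right (al 0) (al 1)
    refine ⟨a', b', ha, hb, EuclideanDomain.gcdA (al 0) (al 1), EuclideanDomain.gcdB (al 0) (al 1),
      mul_left_cancel₀ (a := EuclideanDomain.gcd (al 0) (al 1))
        (fun h => al0 0 (EuclideanDomain.gcd_eq_zero_iff.1 h).1) ?_⟩
    have := EuclideanDomain.gcd_eq_gcd_ab (al 0) (al 1)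
    linear_combination -this - EuclideanDomain.gcdA (al 0) (al 1) * ha -
      EuclideanDomain.gcdB (al 0) (al 1) * hb
  generalize EuclideanDomain.gcd (al 0) (al 1) = n at ha hb
  obtain ⟨p, q, hpq⟩ := hco
  have n0 : n ≠ 0 := fun h => al0 0 (by rw [ha, h, zero_mul])
  have a0 : a' ≠ 0 := fun h => al0 0 (by rw [ha, h, mul_zero])
  have b0 : b' ≠ 0 := fun h => al0 1 (by rw [hb, h, mul_zero])
  have cne : ∀ {c : GaussianInt}, c ≠ 0 → (c : ℂ) ≠ 0 := fun h h' =>
    h (GaussianInt.toComplex_eq_zero.1 h')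
  have nC := cne n0
  have aC := cne a0
  have bC := cne b0
  set X : ℂ × ℂ := (B 0 : ℂ × ℂ) with hX
  set Y : ℂ × ℂ := (B 1 : ℂ × ℂ) with hY
  have eX : ∀ c : GaussianInt, ex ((c : ℂ) • X) = 0 := fun c => L1.smul_mem c (B 0).2
  have eY : ∀ c : GaussianInt, ex ((c : ℂ) • Y) = 0 := fun c => L1.smul_mem c (B 1).2
  have rep1 : ∀ v, ex v = 0 → ∃ c d : GaussianInt, v = (c : ℂ) • X + (d : ℂ) • Y := fun v hv => by
    have := congrArg Subtype.val (B.sum_repr ⟨v, hv⟩)
    rw [Fin.sum_univ_two] at this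
    exact ⟨_, _, this.symm⟩
  have ind : ∀ c d : GaussianInt, (c : ℂ) • X + (d : ℂ) • Y = 0 → c = 0 ∧ d = 0 := fun c d h =>
    by
    have h1 := Fintype.linearIndependent_iff.1 B.linearIndependent ![c, d]
      (by rw [Fin.sum_univ_two]; exact Subtype.ext h)
    exact ⟨h1 0, h1 1⟩
  have hB' : ∀ j, ((B2 j : L1) : ℂ × ℂ) = (al j : ℂ) • (B j : ℂ × ℂ) := fun j => by rw [hB]; rfl
  have rep2 : ∀ v ∈ Pi, ∃ c d : GaussianInt,
      (M : ℂ) • v = ((c * (n * a') : GaussianInt) : ℂ) • X + ((d * (n * b') : GaussianInt) : ℂ) • Y :=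
    fun v hv => by
    have := congrArg (fun z : L2.comap L1.subtype => ((z : L1) : ℂ × ℂ))
      (B2.sum_repr ⟨⟨_, le (m2 v hv)⟩, m2 v hv⟩)
    rw [Fin.sum_univ_two] at this
    refine ⟨B2.repr ⟨⟨_, le (m2 v hv)⟩, m2 v hv⟩ 0, B2.repr ⟨⟨_, le (m2 v hv)⟩, m2 v hv⟩ 1,
      this.symm.trans ?_⟩
    rw [map_mul, map_mul _ _ (n * b'), mul_smul, mul_smul, ← ha, ← hb, hX, hY, ← hB', ← hB']
    rfl
  have mem2 : ∀ c d : GaussianInt,
      (M : ℂ)⁻¹ • (((c * (n * a') : GaussianInt) : ℂ) • X + ((d * (n * b') : GaussianInt) : ℂ) • Y)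
        ∈ Pi := fun c d => by
    rw [map_mul, map_mul _ _ (n * b'), mul_smul, mul_smul, ← ha, ← hb, hX, hY, ← hB', ← hB']
    exact L2.add_mem (L2.smul_mem c (B2 0).2) (L2.smul_mem d (B2 1).2)
  -- the cyclic module
  set z : ℂ × ℂ := (b' : ℂ)⁻¹ • X + (a' : ℂ)⁻¹ • Y with hz
  set t : ℂ := (M : ℂ) / (n * a' * b') with ht
  have hpq' : (p : ℂ) * a' + q * b' = 1 := by
    rw [← map_mul, ← map_mul, ← map_add, hpq, map_one]
  have cz : ∀ v ∈ Pi, ∃ c, ex (t • v) = gs ι c (ex z) := fun v hv => by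
    obtain ⟨c, d, h⟩ := rep2 v hv
    refine ⟨c * p * a' + d * q * b', ?_⟩
    have h1 : t • v = ((c * p * a' + d * q * b' : GaussianInt) : ℂ) • z +
        (((c * q - d * q : GaussianInt) : ℂ) • X + ((d * p - c * p : GaussianInt) : ℂ) • Y) := by
      rw [ht, div_eq_inv_mul, mul_smul, h, hz]
      simp only [map_mul, map_add, map_sub]
      match_scalars
      · field_simp
        linear_combination (-(c : ℂ)) * hpq'
      · field_simp
        linear_combination (-(d : ℂ)) * hpq'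
    rw [h1, map_add ex, map_add ex, eX, eY, add_zero, add_zero, exG]
  have hz' : z = t • (M : ℂ)⁻¹ • (((1 * (n * a') : GaussianInt) : ℂ) • X +
      ((1 * (n * b') : GaussianInt) : ℂ) • Y) := by
    rw [hz, ht]
    simp only [map_mul, map_one]
    match_scalars <;> field_simp
  have nrm : ∀ {c : GaussianInt}, c ≠ 0 → ∃ m : ℕ, m ≠ 0 ∧ (m : ℂ) = c * (star c : GaussianInt) :=
    fun {c} hc => ⟨c.norm.natAbs, by rwa [Ne, Int.natAbs_eq_zero, GaussianInt.norm_eq_zero], by
      rw [← map_mul, ← Zsqrtd.norm_eq_mul_conj, map_intCast, GaussianInt.natCast_natAbs_norm]⟩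
  have hK : K0 • ex z = 0 := by
    refine cyc z ?_ fun s => ?_
    · obtain ⟨m, m0, hm⟩ := nrm (mul_ne_zero a0 b0)
      refine ⟨m, m0, ?_⟩
      have h1 : m • z = ((a' * star (a' * b') : GaussianInt) : ℂ) • X +
          ((b' * star (a' * b') : GaussianInt) : ℂ) • Y := by
        rw [← Nat.cast_smul_eq_nsmul ℂ, hm, hz]
        generalize star (a' * b') = e
        simp only [map_mul]
        match_scalars <;> field_simp
      rw [← map_nsmul, h1, map_add, eX, eY, add_zero]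
    · obtain ⟨m, m0, hm⟩ := nrm (mul_ne_zero (mul_ne_zero n0 a0) b0)
      have mC : (m : ℂ) ≠ 0 := Nat.cast_ne_zero.2 m0
      have ht' : t = ((M * star (n * a' * b') : GaussianInt) : ℂ) * (m : ℂ)⁻¹ := by
        have e0 := cne (star_ne_zero.2 (mul_ne_zero (mul_ne_zero n0 a0) b0))
        rw [ht, hm]
        generalize star (n * a' * b') = e at e0
        simp only [map_mul, map_natCast]
        field_simp
      obtain ⟨v', hv', h⟩ := stab m m0 s _ (mem2 1 1)
      obtain ⟨c, hc⟩ := cz v' hv'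
      refine ⟨c, ?_⟩
      rw [← hc]
      conv_lhs => rw [hz']
      rw [ht', mul_smul, mul_smul, exG, exG, gs_comm _ _ (aι _ _), h]
  obtain ⟨c, d, hcd⟩ := rep1 (K0 • z) (by rw [map_nsmul, hK])
  obtain ⟨k1, k2⟩ := ind (a' * (K0 - c * b')) (b' * (K0 - d * a')) (by
    have h1 := congrArg (fun v => ((a' : ℂ) * b') • v) hcd
    simp only [← Nat.cast_smul_eq_nsmul ℂ, hz] at h1
    rw [← sub_eq_zero] at h1
    rw [← h1]
    simp only [map_mul, map_sub, map_natCast]
    match_scalars <;> field_simp)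
  have k1' : (K0 : ℂ) = c * b' := by
    rw [← map_mul, ← sub_eq_zero.1 ((mul_eq_zero.1 k1).resolve_left a0), map_natCast]
  have k2' : (K0 : ℂ) = d * a' := by
    rw [← map_mul, ← sub_eq_zero.1 ((mul_eq_zero.1 k2).resolve_left b0), map_natCast]
  obtain ⟨m, m0, hm⟩ := nrm n0
  have mC : (m : ℂ) ≠ 0 := Nat.cast_ne_zero.2 m0
  have hxy : (((M * (star n).re / m : ℚ) : ℂ) + ((M * (star n).im / m : ℚ) : ℂ) * I) = M / n := by
    push_cast
    field_simp
    rw [hm, GaussianInt.toComplex_def (star n), mul_comm]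
  refine ⟨M * (star n).re / m, M * (star n).im / m, ?_, fun v hv => ?_, fun v hv => ?_⟩
  · by_contra h
    rw [not_or, not_not, not_not] at h
    rw [h.1, h.2] at hxy
    exact div_ne_zero hMC nC (by rw [← hxy]; simp)
  · obtain ⟨e, f, h⟩ := rep2 v hv
    have h1 : ((M : ℂ) / n) • v = ((e * a' : GaussianInt) : ℂ) • X +
        ((f * b' : GaussianInt) : ℂ) • Y := by
      rw [div_eq_inv_mul, mul_smul, h]
      simp only [map_mul]
      match_scalars <;> field_simp
    rw [hxy, h1, map_add, eX, eY, add_zero]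
  · obtain ⟨e, f, h⟩ := rep1 v hv
    refine ⟨_, mem2 (e * d) (f * c), ?_⟩
    rw [hxy, h]
    simp only [map_mul]
    match_scalars
    · field_simp
      linear_combination (e : ℂ) * k2'
    · field_simp
      linear_combination (f : ℂ) * k1'

end Vale.Agent.P027M.B2
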