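import Vale.Agent.P027M.B2.Core
import Vale.Agent.P027M.B2.Lat

/-! # P027, route M, block B2 : stable cyclic modules are bounded (abstract form) -/

namespace Vale.Agent.P027M.B2

section

variable {H : Type*} [AddCommGroup H] (ι ρ : H →+ H)

theorem gs_add (c d : GaussianInt) (y : H) : gs ι (c + d) y = gs ι c y + gs ι d y := by
  simp only [gs, Zsqrtd.re_add, Zsqrtd.im_add, add_smul]; abel

theorem gs_add' (c : GaussianInt) (x y : H) : gs ι c (x + y) = gs ι c x + gs ι c y := by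
  simp only [gs, map_add, smul_add]; abel

theorem gs_zero (c : GaussianInt) : gs ι c 0 = 0 := by simp [gs]

theorem gs_nat (n : ℕ) (y : H) : gs ι n y = n • y := by simp [gs]

theorem gs_nsmul (c : GaussianInt) (n : ℕ) (y : H) : gs ι c (n • y) = n • gs ι c y := by
  simp only [gs, map_nsmul, smul_add, smul_comm n]

theorem gs_mul (c d : GaussianInt) {y : H} (h : ι (ι y) = -y) :
    gs ι (c * d) y = gs ι c (gs ι d y) := by
  simp only [gs, Zsqrtd.re_mul, Zsqrtd.im_mul, map_add, map_zsmul, h]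
  module

theorem gs_neg (c : GaussianInt) (y : H) : gs (-ι) c y = gs ι (star c) y := by
  simp [gs]

/-- the part `ι ^ 2 = -1`, `1 + ρ + ρ ^ 2 = 0` -/
def PT : AddSubgroup H where
  carrier := {y | ι (ι y) = -y ∧ y + ρ y + ρ (ρ y) = 0}
  add_mem' := fun {x y} hx hy => ⟨by rw [map_add, map_add, hx.1, hy.1, neg_add], by
    rw [map_add, map_add, ← add_zero (0 : H)]
    nth_rewrite 1 [← hx.2]
    rw [← hy.2]; abel⟩
  zero_mem' := ⟨by simp, by simp⟩
  neg_mem' := fun {x} hx => ⟨by rw [map_neg, map_neg, hx.1], by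
    rw [map_neg, map_neg, ← neg_add, ← neg_add, hx.2, neg_zero]⟩

variable {ι ρ}

theorem PT_map (f : H →+ H) (h1 : ∀ y, f (ι y) = ι (f y)) (h2 : ∀ y, f (ρ y) = ρ (f y)) {y : H}
    (hy : y ∈ PT ι ρ) : f y ∈ PT ι ρ :=
  ⟨by rw [← h1, ← h1, hy.1, map_neg], by rw [← h2, ← h2, ← map_add, ← map_add, hy.2, map_zero]⟩

/-- the structure of a module over the Gaussian integers -/
@[reducible] def modT (h : ∀ y, ρ (ι y) = ι (ρ y)) : Module GaussianInt (PT ι ρ) where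
  smul c y := ⟨gs ι c y, (PT ι ρ).add_mem ((PT ι ρ).zsmul_mem y.2 _)
    ((PT ι ρ).zsmul_mem (PT_map ι (fun _ => rfl) (fun y => (h y).symm) y.2) _)⟩
  one_smul y := Subtype.ext (by show gs ι 1 (y : H) = y; simp [gs])
  mul_smul c d y := Subtype.ext (gs_mul ι c d y.2.1)
  smul_zero c := Subtype.ext (gs_zero ι c)
  smul_add c x y := Subtype.ext (gs_add' ι c x y)
  add_smul c d y := Subtype.ext (gs_add ι c d y)
  zero_smul y := Subtype.ext (by show gs ι 0 (y : H) = 0; simp [gs])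

theorem abs_core {G : Type*} [Group G] (K : Subgroup G) [hK : K.Normal] (r : G → H →+ H)
    (r1 : ∀ y, r 1 y = y) (rm : ∀ g g' y, r (g * g') y = r g (r g' y))
    (ρ3 : ∀ y, ρ (ρ (ρ y)) = y) (ρι : ∀ y, ρ (ι y) = ι (ρ y))
    (rι : ∀ g y, r g (ι y) = ι (r g y)) (rρ : ∀ g y, r g (ρ y) = ρ (r g y))
    {φ ψ s : G} (hs : s ∈ K) (hu : ψ * φ⁻¹ ∈ K) (hf : φ * φ ∈ K) {x : H} (hx : x ∈ PT ι ρ)
    (st : ∀ t ∈ K, ∃ c, r t x = gs ι c x) {b e : GaussianInt}
    (ch : r φ (r φ x) + gs ι e x = gs ι b (ι (ρ (r φ x) - ρ (ρ (r φ x)))))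
    (s2 : r s (r s x) = -x) (s1 : r (ψ * s * ψ⁻¹) (r s x) = x) :
    (6 * b ^ 2).norm.natAbs • x = 0 := by
  letI := modT ρι
  have lin : ∀ f : H →+ H, (∀ y, f (ι y) = ι (f y)) → (∀ y, f (ρ y) = ρ (f y)) →
      ∃ L : Module.End GaussianInt (PT ι ρ), ∀ y, (L y : H) = f y := fun f h1 h2 =>
    ⟨{ toFun := fun y => ⟨f y, PT_map f h1 h2 y.2⟩
       map_add' := fun x y => Subtype.ext (map_add f _ _)
       map_smul' := fun c y => Subtype.ext (gs_comm f c (h1 _)) }, fun _ => rfl⟩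
  choose A hA using fun g => lin (r g) (rι g) (rρ g)
  let w : H →+ H := ι.comp (ρ - ρ.comp ρ)
  have hw : ∀ y, w y = ι (ρ y - ρ (ρ y)) := fun _ => rfl
  have rw' : ∀ g y, r g (w y) = w (r g y) := fun g y => by simp only [hw, rι, map_sub, rρ]
  obtain ⟨J, hJ⟩ := lin (w.comp (r φ))
    (fun y => by simp only [AddMonoidHom.comp_apply, hw, rι, ρι, map_sub])
    (fun y => by simp only [AddMonoidHom.comp_apply, hw, rρ, ρι, map_sub])
  simp only [AddMonoidHom.comp_apply] at hJ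
  let a : K →* Module.End GaussianInt (PT ι ρ) :=
    { toFun := fun t => A t
      map_one' := LinearMap.ext fun y => Subtype.ext (by rw [hA]; exact r1 _)
      map_mul' := fun t t' => LinearMap.ext fun y => Subtype.ext (by
        rw [Module.End.mul_apply, hA, hA, hA]; exact rm _ _ _) }
  have ha : ∀ (t : K) y, (a t y : H) = r t y := fun t y => hA _ _
  obtain ⟨c, hc⟩ := st _ hf
  have h := core K a ⟨x, hx⟩ (fun t => (st t t.2).imp fun c hc => Subtype.ext (by rw [ha]; exact hc))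
    J φ ψ ⟨s, hs⟩ ⟨_, hu⟩ ⟨_, hf⟩ rfl b 3 (c + e)
    (Subtype.ext (by
      rw [hJ, ha, ha, hJ, rw', ← rm, ← rm, inv_mul_cancel_right]))
    (Subtype.ext (by
      show gs ι b (J ⟨x, hx⟩ : H) = gs ι (c + e) x
      rw [hJ, gs_add, ← hc, rm, ch, hw]))
    (Subtype.ext (by
      show (J (J ⟨x, hx⟩) : H) = gs ι ((3 : ℕ) : GaussianInt) (a ⟨_, hf⟩ ⟨x, hx⟩ : H)
      have hy := PT_map _ (rι (φ * φ)) (rρ (φ * φ)) hx
      rw [hJ, hJ, ha, rw', ← rm, gs_nat]
      generalize r (φ * φ) x = y at hy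
      have h1 : ρ (ρ y) = -y - ρ y := by rw [← sub_eq_zero, ← hy.2]; abel
      have h2 : ι (ι (ρ y)) = -ρ y := by rw [← ρι, ← ρι, hy.1, map_neg]
      simp only [hw, ρι, map_sub, ρ3, h1, map_neg, hy.1, h2]
      module))
    (Subtype.ext (by rw [ha, ha]; exact s2)) (Subtype.ext (by rw [ha, ha]; exact s1))
  have h1 : gs ι (2 * 3 * b ^ 2) x = 0 := congrArg Subtype.val h
  rw [← gs_nat ι, GaussianInt.natCast_natAbs_norm, Zsqrtd.norm_eq_mul_conj, mul_comm,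
    gs_mul ι _ _ hx.1, show (6 : GaussianInt) = 2 * 3 by norm_num, h1, gs_zero]

/-- reduction to prime powers -/
theorem prime_red {z : H} (K0 : ℕ) (tor : ∃ n : ℕ, n ≠ 0 ∧ n • z = 0)
    (h : ∀ l k m : ℕ, l.Prime → l ^ k • m • z = 0 → K0 • m • z = 0) : K0 • z = 0 := by
  obtain ⟨n, n0, hn⟩ := tor
  have o0 : addOrderOf z ≠ 0 :=
    (isOfFinAddOrder_iff_nsmul_eq_zero.2 ⟨n, Nat.pos_of_ne_zero n0, hn⟩).addOrderOf_pos.ne'
  rw [← addOrderOf_dvd_iff_nsmul_eq_zero, Nat.dvd_iff_prime_pow_dvd_dvd]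
  rintro l k hl ⟨m, hm⟩
  have h1 := h l k m hl (by rw [smul_smul, ← hm, addOrderOf_nsmul_eq_zero])
  rw [smul_smul, ← addOrderOf_dvd_iff_nsmul_eq_zero, hm] at h1
  exact Nat.dvd_of_mul_dvd_mul_right (Nat.pos_of_ne_zero fun h0 => o0 (by rw [hm, h0, mul_zero])) h1

end

end Vale.Agent.P027M.B2
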