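import Vale.Agent.P027M.B2.Defs
import Vale.Agent.P027M.D.Auxp

/-! # P027, route M, block B2 : tame inertia at the auxiliary primes -/

set_option linter.all false

noncomputable section

namespace Vale.Agent.P027M.B2

open Vale.Agent.P022 Vale.Agent.P019P P025H816 _root_.P027M.K
open Vale.Agent.P027M.F (Par Tw Cfg)

/-- the action on `C` of an element which fixes `i` -/
def RC {g : ℚ} (X : Cfg g) (σ : GQ) (h : σ (X.i : Qb) = X.i) : SL Qb X.P.FC :=
  ⟨X.rC σ, σ.toRingEquiv, fun a => Subtype.ext ((X.rC_coe h _).trans (X.r_c σ a))⟩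

theorem aux (hJ : JN) : AUX := by
  intro g X p hg hp
  obtain ⟨s, ψ, hs, hψ, H⟩ := D.aux0 g X hg p hp
  have i0 : (X.i : Qb) ≠ 0 := by rw [← X.P_i]; exact X.P.i_ne
  have hs' : (ψ * s * ψ⁻¹) (X.i : Qb) = X.i := by
    have e : ψ⁻¹ (X.i : Qb) = -X.i := by
      apply ψ.injective
      rw [← AlgEquiv.mul_apply, mul_inv_cancel, map_neg, hψ, neg_neg]; rfl
    rw [AlgEquiv.mul_apply, AlgEquiv.mul_apply, e, map_neg, hs, map_neg, hψ, neg_neg]
  refine ⟨s, ψ, hs, fun e => i0 (by linear_combination (hψ - e) / 2), fun n hn z hz hA => ?_⟩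
  have n0 : n ≠ 0 := by rintro rfl; exact hn (dvd_zero p)
  obtain ⟨j1, -, j3⟩ := hJ Qb X.P
  have hx : n • pushP X.P.FC z = 0 := by rw [← map_nsmul, hz, map_zero]
  have e2 : 2 • z = pullP X.P.FF (pushP X.P.FC z) := by rw [j1 n z n0 hz, hA.1, two_nsmul]
  obtain ⟨a1, a2⟩ := H (RC X s hs) (RC X _ hs') rfl rfl n _ hn hx
  have hy : n • actP (RC X s hs) (pushP X.P.FC z) = 0 := by rw [← map_nsmul, hx, map_zero]
  have k1 := j3 (X.R s) (RC X s hs) n _ n0 hx fun y => (X.rC_coe hs y).symm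
  constructor
  · rw [nsmul_add, ← map_nsmul, ← map_nsmul, e2, k1,
      j3 (X.R s) (RC X s hs) n _ n0 hy fun y => (X.rC_coe hs y).symm, a1, map_neg, neg_add_cancel]
  · rw [nsmul_sub, ← map_nsmul, ← map_nsmul, e2, k1,
      j3 (X.R _) (RC X _ hs') n _ n0 hy fun y => (X.rC_coe hs' y).symm, a2, sub_self]

end Vale.Agent.P027M.B2
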