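import Vale.Agent.P027M.B2.Cyq
import Vale.Agent.P027M.FA.Tr
import Vale.Agent.P022.H20.Frob

/-! # P027, route M, block B2 : the equation of Frobenius, back in characteristic zero -/

set_option linter.all false

noncomputable section

namespace Vale.Agent.P027M.B2

open NumberField Vale.Agent.P022 Vale.Agent.P019P P025H492 P025H816 _root_.P027M.K
open Vale.Agent.P027M.F (Par)

variable {g : ℚ} (X : F.Cfg g)

theorem frob_ne {p : ℕ} (h3 : p % 4 = 3) {Q : Ideal (𝓞 Qb)} {φ : GQ} (h : FA.FrobAt p Q φ) :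
    φ (X.i : Qb) ≠ X.i := fun e => by
  have h1 := h.fr X.i
  have h2 : φ • X.i = X.i := Subtype.ext e
  have h4 : X.i ^ p = -X.i := by
    rw [← Nat.div_add_mod p 4, h3, pow_add, pow_mul]
    have : X.i ^ 4 = 1 := by linear_combination (X.i ^ 2 - 1) * X.hi
    rw [this, one_pow]
    linear_combination X.i * X.hi
  have h5 : (p : 𝓞 Qb) = 2 * (2 * (p / 4 : ℕ) + 1) + 1 := by
    conv_lhs => rw [← Nat.div_add_mod p 4, h3]
    push_cast; ring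
  rw [h2, h4] at h1
  refine h.pr.ne_top ((Ideal.eq_top_iff_one _).2 ?_)
  have h6 := Q.add_mem h.mem (Q.mul_mem_left (X.i * (2 * (p / 4 : ℕ) + 1)) h1)
  rwa [h5, show 2 * (2 * ((p / 4 : ℕ) : 𝓞 Qb) + 1) + 1 +
    X.i * (2 * (p / 4 : ℕ) + 1) * (X.i - -X.i) = 1 by
      linear_combination 2 * (2 * ((p / 4 : ℕ) : 𝓞 Qb) + 1) * X.hi] at h6

theorem chq {p e : ℕ} (hp : p.Prime) (h3 : p % 4 = 3) (hU : FA.Unit X p) {a : O3}
    {ε b : GaussianInt} (hO : FA.OutP X a ε b p) (he : gi (iO : O3) ε = iO ^ e) : ChQ X p b := by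
  obtain ⟨φ, Q, q1, q2, q3⟩ := H20.exists_isFrob hp
  have fr : FA.FrobAt p Q φ := ⟨q1, q2, q3⟩
  obtain ⟨D, R, l1, l2, l3, l4⟩ := FA.tr2 X hp hU fr
  refine ⟨φ, p * (⟨0, 1⟩ : GaussianInt) ^ e, frob_ne X h3 fr, fun n hn z hz hA => ?_⟩
  have n0 : n ≠ 0 := fun h => hn (by rw [h]; exact dvd_zero p)
  have nk : (n : D.k) ≠ 0 := fun h => hn ((CharP.cast_eq_zero_iff D.k p n).1 h)
  have K := (hO.2 Q φ fr D e he).2 n hn
  rw [decide_eq_true h3] at K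
  let r : SL D.k D.P.FF := ⟨D.T.rr D.f, D.f, F.Tw.rr_c D.f⟩
  let S := tors (Pc Qb X.P.FF) n
  have mS : ∀ (f : Pc Qb X.P.FF →+ Pc Qb X.P.FF) {y}, y ∈ S → f y ∈ S := fun f y h => by
    rw [mem_tors, ← map_nsmul, mem_tors.1 h, map_zero]
  have mg : ∀ (c : GaussianInt) {y}, y ∈ S → gs (actP X.P.sI) c y ∈ S := fun c y h =>
    add_mem (zsmul_mem h _) (zsmul_mem (mS _ h) _)
  have sT : ∀ {y}, y ∈ S → R.sp (actP X.P.sT y) = actP D.P.sT (R.sp y) := fun h =>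
    P027M.R.Rdn.sp_act (θ := X.P.sT) (τ := D.P.sT) l1 n0 (mem_tors.1 h)
  have sR : ∀ {y}, y ∈ S → R.sp (actP X.P.sR y) = actP D.P.sR (R.sp y) := fun h =>
    P027M.R.Rdn.sp_act (θ := X.P.sR) (τ := D.P.sR) l2 n0 (mem_tors.1 h)
  have sI : ∀ {y}, y ∈ S → R.sp (actP X.P.sI y) = actP D.P.sI (R.sp y) := fun h =>
    P027M.R.Rdn.sp_act (θ := X.P.sI) (τ := D.P.sI) l3 n0 (mem_tors.1 h)
  have sF : ∀ {y}, y ∈ S → R.sp (actP (X.R φ) y) = actP r (R.sp y) := fun h =>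
    P027M.R.Rdn.sp_act (θ := X.R φ) (τ := r) l4 n0 (mem_tors.1 h)
  have z0 : z ∈ S := mem_tors.2 hz
  have z1 := mS (actP (X.R φ)) z0
  have z2 := mS (actP X.P.sR) z1
  have z3 := sub_mem z2 (mS (actP X.P.sR) z2)
  have z4 := mS (actP X.P.sI) z3
  have h := kc0 r (act_comm (F.Tw.rr_iota D.f)) (act_comm (F.Tw.rr_rho D.f)) n0 K (z := R.sp z)
    (by rw [← map_nsmul, hz, map_zero])
    ⟨by rw [← sT z0, hA.1], by rw [← sI z0, ← sI (mS _ z0), hA.2.1, map_neg], by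
      rw [← sR z0, ← sR (mS _ z0), ← map_add, ← map_add, hA.2.2, map_zero]⟩
  refine sub_eq_zero.1 (R.inj nk (mem_tors.1 (sub_mem
    (nsmul_mem (add_mem (mS _ z1) (mg _ z0)) _) (nsmul_mem (mg _ z4) _))) ?_)
  rw [map_sub, map_nsmul, map_nsmul, map_add, gs_comm _ _ (sI z0), gs_comm _ _ (sI z4), sI z3,
    map_sub, sR z2, sR z1, sF z1, sF z0, h, sub_self]

end Vale.Agent.P027M.B2
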