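import Vale.Agent.P027M.B2.Cyp
import Vale.Agent.P027M.B2.Chq
import Vale.Agent.P027M.B2.Aux1
import Vale.Agent.P027M.F.Mate2
import Vale.Agent.P027M.Top.Hw

/-! # P027, route M, block B2 : the closed output -/

set_option linter.all false

noncomputable section

namespace Vale.Agent.P027M.B2

open Vale.Agent.P022

theorem hyps0 : X.HYPS := fun _ _ _ P _ hr => F.Mate.hyps P hr

theorem hop0 : X.HOP := fun _ _ _ _ P _ h hr => F.Mate.hop P hr h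

theorem KK_ne {b1 b2 : GaussianInt} (h1 : b1 ≠ 0) (h2 : b2 ≠ 0) : 2 * KK b1 b2 ≠ 0 := by
  have h : ∀ {b : GaussianInt}, b ≠ 0 → (6 * b ^ 2).norm.natAbs ≠ 0 := fun hb => by
    rw [Ne, Int.natAbs_eq_zero, GaussianInt.norm_eq_zero]
    exact mul_ne_zero (by decide) (pow_ne_zero _ hb)
  exact mul_ne_zero two_ne_zero (mul_ne_zero (by norm_num) (mul_ne_zero (h h1) (h h2)))

theorem KK_le {b1 b2 : GaussianInt} {A1 A2 : ℕ} (h1 : b1.norm ≤ A1) (h2 : b2.norm ≤ A2) :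
    2 * KK b1 b2 ≤ 48 * (36 * A1 ^ 2 * (36 * A2 ^ 2)) := by
  have h : ∀ {b : GaussianInt} {A : ℕ}, b.norm ≤ A → (6 * b ^ 2).norm.natAbs ≤ 36 * A ^ 2 :=
    fun {b A} hb => by
    have h0 := GaussianInt.norm_nonneg b
    rw [pow_two, Zsqrtd.norm_mul, Zsqrtd.norm_mul, show (6 : GaussianInt).norm = 36 by decide]
    zify
    rw [abs_of_nonneg (by positivity)]
    nlinarith
  rw [KK, ← mul_assoc]
  exact Nat.mul_le_mul_left _ (Nat.mul_le_mul (h h1) (h h2))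

/-- **the output of block B2** -/
theorem cyp {g : ℚ} (hg : Std g) (Y : F.Cfg g) {a1 a2 : O3} {ε1 ε2 b1 b2 : GaussianInt}
    (o1 : FA.OutP Y a1 ε1 b1 11) (o2 : FA.OutP Y a2 ε2 b2 23)
    (e1 : ∃ e : ℕ, gi (iO : O3) ε1 = iO ^ e) (e2 : ∃ e : ℕ, gi (iO : O3) ε2 = iO ^ e)
    {r T : Qb} (hr : r ≠ 0) (fr : ∀ σ : GQ, σ (Y.i : Qb) = Y.i → σ r = r)
    (hT : T = r ^ 4 * Y.P.g0) (hi : (Y.i : Qb) ^ 2 = -1) :
    X.CycQ Y.i hi g T (2 * KK b1 b2) := by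
  obtain ⟨e1, e1⟩ := e1
  obtain ⟨e2, e2⟩ := e2
  rw [hT, ← Y.P_g]
  exact cyp0 hyps0 hop0 Y hr fr (cyq g Y b1 b2
    (chq Y (by norm_num) (by norm_num) (Top.unit11 hg Y (Or.inl rfl)) o1 e1)
    (chq Y (by norm_num) (by norm_num) (Top.unit11 hg Y (Or.inr rfl)) o2 e2)
    (aux jn g Y 7 hg (Or.inl rfl)) (aux jn g Y 19 hg (Or.inr rfl))) hi

end Vale.Agent.P027M.B2
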