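import Mathlib

/-! # P027, route M, block B2 : the algebraic core

A cyclic submodule which is stable under the subgroup `K` is killed by an explicit constant. -/

namespace Vale.Agent.P027M.B2

/-- `a t` is the action of `t ∈ K`, `J` intertwines `t` and `φ t φ⁻¹` -/
theorem core {R H G : Type*} [CommRing R] [AddCommGroup H] [Module R H] [Group G]
    (K : Subgroup G) [hK : K.Normal] (a : K →* Module.End R H) (x : H)
    (st : ∀ t, ∃ c : R, a t x = c • x) (J : Module.End R H) (φ ψ : G) (s u f : K)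
    (hu : (u : G) = ψ * φ⁻¹) (b c₂ lam : R)
    (hJ : J (a s x) = a ⟨φ * s * φ⁻¹, hK.conj_mem _ s.2 φ⟩ (J x))
    (hb : b • J x = lam • x) (h2 : J (J x) = c₂ • a f x) (s2 : a s (a s x) = -x)
    (s1 : a ⟨ψ * s * ψ⁻¹, hK.conj_mem _ s.2 ψ⟩ (a s x) = x) : (2 * c₂ * b ^ 2) • x = 0 := by
  set s' : K := ⟨φ * s * φ⁻¹, hK.conj_mem _ s.2 φ⟩ with hs'
  have e : (⟨ψ * s * ψ⁻¹, hK.conj_mem _ s.2 ψ⟩ : K) * u = u * s' := by
    apply Subtype.ext
    simp only [hs', Subgroup.coe_mul, hu]
    group
  obtain ⟨α, hα⟩ := st s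
  obtain ⟨α', hα'⟩ := st s'
  obtain ⟨γ, hγ⟩ := st u
  have inj : ∀ (t : K) (y : H), a t y = 0 → y = 0 := fun t y h => by
    have : a t⁻¹ (a t y) = y := by
      rw [← Module.End.mul_apply, ← map_mul, inv_mul_cancel, map_one, Module.End.one_apply]
    rw [← this, h, map_zero]
  have e1 : (α * α) • x = -x := by rw [← s2, hα, map_smul, hα, smul_smul]
  have e2 : a u ((α * α') • x - x) = 0 := by
    have k := congrArg (fun t => a t (α • x)) e
    simp only [map_mul, Module.End.mul_apply, map_smul] at k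
    rw [hα, map_smul] at s1
    rw [hγ, map_smul, smul_comm α γ, s1, hα', map_smul] at k
    rw [map_sub, map_smul, mul_smul, ← k, hγ, sub_self]
  have e3 : (α * α') • x = x := sub_eq_zero.1 (inj _ _ e2)
  have e4 : α' • x = -(α • x) := by
    calc α' • x = -(α' • (α * α) • x) := by rw [e1, smul_neg, neg_neg]
      _ = -(α • (α * α') • x) := by rw [smul_smul, smul_smul]; congr 2; ring
      _ = _ := by rw [e3]
  have e5 : (2 * lam) • x = 0 := by
    have k := congrArg (fun y => b • y) hJ
    simp only [hα, map_smul] at k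
    rw [smul_comm b α, hb, ← map_smul, hb, map_smul, hα', e4, smul_neg, smul_comm lam α,
      eq_neg_iff_add_eq_zero] at k
    have k2 := congrArg (fun y => α • y) k
    simp only [smul_add, smul_zero, smul_smul] at k2
    have k3 : (α * (α * lam)) • x = -(lam • x) := by
      rw [← smul_neg, ← e1, smul_smul]
      congr 1
      ring
    rw [k3, ← neg_add, neg_eq_zero] at k2
    rw [two_mul, add_smul, k2]
  refine inj f _ ?_
  have e6 : (b * b) • J (J x) = (lam * lam) • x := by
    rw [mul_smul, ← map_smul J b, hb, map_smul, smul_comm b lam, hb, smul_smul]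
  rw [map_smul, show 2 * c₂ * b ^ 2 = 2 * (b * b) * c₂ by ring, mul_smul, ← h2, mul_smul, e6,
    smul_smul, show 2 * (lam * lam) = lam * (2 * lam) by ring, mul_smul, e5, smul_zero]

end Vale.Agent.P027M.B2
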