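import Vale.Agent.P027M.B2.Cyq
import Vale.Agent.P027M.X.Top
import Vale.Agent.P027M.X.Genp
import Vale.Agent.P027M.X.Sep

/-! # P027, route M, block B2 : from the class group of `FF` to the class group of the curve -/

set_option linter.all false

noncomputable section

namespace Vale.Agent.P027M.B2

open Polynomial Vale.Agent.P022 Vale.Agent.P019P P025H492 P025H816 _root_.P027M.K
open Vale.Agent.P027M.F (Par)
open Vale.Agent.P027M.X (PicP cl pmap piota toPc fG fG_odd fG_map)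

theorem iota_W' {k : Type} [Field k] [IsAlgClosed k] (P : Par k) :
    P.iota P.W = P.ι P.i * P.W := by
  rw [P.W_eq]
  simp only [map_div₀, map_mul P.iota, map_pow, map_sub, P.iota_c, P.iota_M1, P.iota_Y]
  ring

theorem cyp0 (h1 : X.HYPS) (h2 : X.HOP) {g : ℚ} (Y : F.Cfg g) {r : Qb} (hr : r ≠ 0)
    (fr : ∀ σ : GQ, σ (Y.i : Qb) = Y.i → σ r = r) {K0 : ℕ} (hc : CycQ Y K0)
    (hi : (Y.i : Qb) ^ 2 = -1) : X.CycQ Y.i hi Y.P.g (r ^ 4 * Y.P.g0) (2 * K0) := by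
  rintro H hH x ⟨n, n0, hn⟩ hx st
  have h := h1 Qb Y.P r hr
  obtain ⟨H0, hH0, e0⟩ := h2 Qb Y.P r h hr
  have rg : X.Rg Y.P.g (r ^ 4 * Y.P.g0) :=
    ⟨mul_ne_zero (pow_ne_zero _ hr) Y.P.hg0, Y.P.hg, Y.P.hp1, Y.P.hm3, Y.P.hm1, Y.P.hp3⟩
  have hid : ∀ y, pmap (RingHom.id Qb) (Polynomial.map_id (p := fG Y.P.g (r ^ 4 * Y.P.g0))) y = y :=
    fun y => DFunLike.congr_fun (PicP.hom_ext (ψ := AddMonoidHom.id _) fun p _ => X.pmap_cl _ _ p) y
  have eH : H x = H0 x := by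
    have := X.hmap X.sep Qb Qb (RingHom.id _) _ _ _ _ Polynomial.map_id H H0 rg rfl rfl hH hH0 x
    rwa [hid, hid] at this
  obtain ⟨j1, j2, j3⟩ := jn Qb Y.P
  have tn : ∀ {y : PicP (fG Y.P.g (r ^ 4 * Y.P.g0))}, n • y = 0 → n • toPc h y = 0 := fun e => by
    rw [← map_nsmul, e, map_zero]
  let J := (pullP Y.P.FF).comp (toPc h)
  have hJ : ∀ y, J y = pullP Y.P.FF (toPc h y) := fun _ => rfl
  have zn : n • J x = 0 := by rw [← map_nsmul, hn, map_zero]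
  have cι := Y.P.res_coe (Y.P.stab_FC Y.P.iota_tau)
  let ιC : SL Qb Y.P.FC := ⟨Y.P.res Y.P.FC Y.P.iota, 1, fun a =>
    Subtype.ext ((cι _).trans (Y.P.iota_c a))⟩
  have r1 : res0 ιC = 1 := res0_eq fun a => Subtype.ext ((cι _).trans (Y.P.iota_c a))
  have hc1 : ∀ a, (ιC : Y.P.FC ≃+* Y.P.FC) (algebraMap Qb _ a) = algebraMap Qb _ a := fun a => by
    rw [res0_spec, r1]; rfl
  have hm1 : (ιC : Y.P.FC ≃+* Y.P.FC) Y.P.mC = -Y.P.mC := Subtype.ext ((cι _).trans Y.P.iota_M1)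
  have hw1 : (ιC : Y.P.FC ≃+* Y.P.FC) Y.P.wC = algebraMap Qb _ (Y.i : Qb) * Y.P.wC :=
    Subtype.ext ((cι _).trans (by rw [← Y.P_i]; exact iota_W' Y.P))
  have aι : ∀ y, n • y = 0 → actP Y.P.sI (J y) = J (-piota (Y.i : Qb) hi (fG_odd _ _) y) := by
    intro y hy
    rw [hJ, hJ, j3 _ ιC n _ n0 (tn hy) fun z => (cι z).symm]
    refine congrArg _ (X.semiP_toPc (res0_spec ιC) h h (a := -1) (b := -Y.i)
      (neg_ne_zero.2 one_ne_zero) ?_ ?_ (-piota (Y.i : Qb) hi (fG_odd _ _)) (fun p _ => ?_) y)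
    · rw [map_mul (ιC : Y.P.FC ≃+* Y.P.FC), hc1, hm1, map_neg, map_one]; ring
    · have := congrArg (algebraMap Qb Y.P.FC) hi
      rw [map_pow, map_neg, map_one] at this
      rw [map_mul (ιC : Y.P.FC ≃+* Y.P.FC), hc1, hw1, map_neg]
      linear_combination (algebraMap Qb Y.P.FC (r ^ 7) * Y.P.wC) * this
    · rw [r1, AddMonoidHom.neg_apply, X.piota_cl, ← X.cl_neg, neg_one_mul, neg_mul]; rfl
  have ι2 : ∀ y, piota (Y.i : Qb) hi (fG_odd Y.P.g (r ^ 4 * Y.P.g0))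
      (piota (Y.i : Qb) hi (fG_odd _ _) y) = -y := fun y =>
    DFunLike.congr_fun (PicP.hom_ext (φ := (piota _ hi (fG_odd _ _)).comp (piota _ hi (fG_odd _ _)))
      (ψ := -AddMonoidHom.id _) fun p _ => by
        rw [AddMonoidHom.comp_apply, X.piota_cl, X.piota_cl, neg_neg, ← mul_assoc, ← pow_two, hi,
          neg_one_mul, X.cl_neg]; rfl) y
  have hτ : actP Y.P.sT (J x) = J x := by
    rw [hJ, j3 _ 1 n _ n0 (tn hn) fun z => Y.P.mem_FC.1 z.2, actP_one]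
  have hK : K0 • J x = 0 := by
    refine hc _ ⟨n, n0, zn⟩ ⟨hτ, ?_, ?_⟩ fun σ hσ => ?_
    · rw [aι x hn, aι _ (by rw [smul_neg, ← map_nsmul, hn, map_zero, neg_zero]),
        map_neg (piota _ _ _), neg_neg, ι2, map_neg]
    · have e1 := congrArg (pullP Y.P.FF) (e0 x)
      rw [← eH, hx, j1 n _ n0 (by rw [← map_nsmul, ← hJ, zn, map_zero]), ← hJ, ← hJ, tau_rho, hτ,
        map_neg] at e1
      rw [add_assoc, ← e1, add_neg_cancel]
    · have g0 : σ Y.P.g0 = Y.P.g0 := by rw [← Y.hs]; exact (Y.fx hσ).2.1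
      have hF : (fG Y.P.g (r ^ 4 * Y.P.g0)).map (σ : Qb →+* Qb) = fG Y.P.g (r ^ 4 * Y.P.g0) := by
        rw [fG_map]
        show fG (σ _) (σ _) = _
        rw [map_mul, map_pow, fr σ hσ, g0, Y.P_g, map_ratCast]
      obtain ⟨c, e⟩ := st σ hσ hF
      have hs : ∀ a, Y.rC σ (algebraMap Qb _ a) = algebraMap Qb _ (σ.toRingEquiv a) := fun a =>
        Subtype.ext ((Y.rC_coe hσ _).trans (Y.r_c σ a))
      let θ : SL Qb Y.P.FC := ⟨Y.rC σ, σ.toRingEquiv, hs⟩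
      have r2 : res0 θ = σ.toRingEquiv := res0_eq hs
      have fp : ∀ m : ℕ, σ.toRingEquiv (r ^ m) = r ^ m := fun m => by
        rw [map_pow]; exact congrArg (· ^ m) (fr σ hσ)
      have e2 : actP θ (toPc h x) = toPc h (pmap (σ : Qb →+* Qb) hF x) :=
        X.semiP_toPc (res0_spec θ) h h (a := 1) (b := 1) one_ne_zero
          (by rw [map_one, one_mul]; show _ = Y.rC σ _; rw [map_mul, hs, fp, Y.rC_m hσ])
          (by rw [map_one, one_mul]; show _ = Y.rC σ _; rw [map_mul, hs, fp, Y.rC_w hσ]) _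
          (fun p _ => by rw [r2, X.pmap_cl, one_mul, one_mul]; rfl) x
      refine ⟨star c, ?_⟩
      rw [← gs_neg, ← gs_comm (ι := piota (Y.i : Qb) hi (fG_odd _ _)) J c
        (by rw [AddMonoidHom.neg_apply, aι x hn, map_neg, neg_neg]), ← e, hJ,
        hJ, j3 _ θ n _ n0 (tn hn) fun z => (Y.rC_coe hσ z).symm, e2]
  refine X.toPc_inj h ?_
  rw [map_zero, map_nsmul, mul_comm, mul_smul, ← j2, ← map_nsmul, ← hJ, hK, map_zero]

end Vale.Agent.P027M.B2
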