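import Vale.Agent.P027M.B2.Kc

/-! # P027, route M, block B2 : stable cyclic modules in the class group of `FF` over `ℚ̄` -/

set_option linter.all false

noncomputable section

namespace Vale.Agent.P027M.B2

open Vale.Agent.P022 Vale.Agent.P019P P025H492 P025H816 _root_.P027M.K
open Vale.Agent.P027M.F (Par)

variable {g : ℚ} (X : F.Cfg g)

theorem i_sq : (X.i : Qb) ^ 2 = -1 := by rw [← X.P_i]; exact X.P.hi

theorem i_neg {σ : GQ} (h : σ (X.i : Qb) ≠ X.i) : σ (X.i : Qb) = -X.i := by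
  have h1 : (σ X.i - X.i) * (σ X.i + X.i) = 0 := by
    have := congrArg σ (i_sq X)
    rw [map_pow, map_neg, map_one] at this
    linear_combination this - i_sq X
  exact eq_neg_of_add_eq_zero_left ((mul_eq_zero.1 h1).resolve_left (sub_ne_zero.2 h))

theorem normalK : (MulAction.stabilizer GQ (X.i : Qb)).Normal := ⟨fun s hs t => by
  have h : s (X.i : Qb) = X.i := hs
  show t (s (t⁻¹ (X.i : Qb))) = X.i
  by_cases ht : t⁻¹ (X.i : Qb) = X.i
  · rw [ht, h]; exact (congrArg t ht).symm.trans (t.apply_symm_apply _)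
  · rw [i_neg X ht, map_neg, h, ← i_neg X ht]; exact t.apply_symm_apply _⟩

theorem one_prime {p p0 n : ℕ} {b : GaussianInt} (hc : ChQ X p b) (ha : AuxQ X p0) (h1 : ¬ p ∣ n)
    (h2 : ¬ p0 ∣ n) {z : Pc Qb X.P.FF} (hz : n • z = 0) (hA : InA X.P z)
    (st : ∀ σ : GQ, σ (X.i : Qb) = X.i → ∃ c, actP (X.R σ) z = gs (actP X.P.sI) c z) :
    (24 * (6 * b ^ 2).norm.natAbs) • z = 0 := by
  obtain ⟨φ, e, hφ, hc⟩ := hc
  obtain ⟨s, ψ, hs, hψ, ha⟩ := ha
  have c1 := congrArg (fun y => 2 • y) (hc n h1 z hz hA)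
  obtain ⟨a1, a2⟩ := ha n h2 z hz hA
  have := normalK X
  rw [mul_comm, mul_smul]
  refine abs_core (ι := actP X.P.sI) (ρ := actP X.P.sR) (MulAction.stabilizer GQ (X.i : Qb))
    (fun σ => actP (X.R σ)) (fun y => by rw [map_one, actP_one])
    (fun σ σ' y => by rw [map_mul, actP_mul]) rho3 rho_iota (R_iota X) (R_rho X) (φ := φ) (ψ := ψ)
    (s := s) hs ?_ ?_ (hA.nsmul 24).2 (fun t ht => ?_) (e := e) ?_ ?_ ?_
  · show ψ (φ⁻¹ (X.i : Qb)) = X.i
    have h3 : φ⁻¹ (X.i : Qb) ≠ X.i := fun h => hφ ((congrArg φ h).symm.trans (φ.apply_symm_apply _))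
    rw [i_neg X h3, map_neg, i_neg X hψ, neg_neg]
  · show φ (φ (X.i : Qb)) = X.i
    rw [i_neg X hφ, map_neg, i_neg X hφ, neg_neg]
  · obtain ⟨c, hc⟩ := st t ht
    exact ⟨c, by rw [map_nsmul, gs_nsmul, hc]⟩
  · simp only [smul_smul] at c1
    simp only [map_nsmul, gs_nsmul, ← nsmul_add, ← nsmul_sub]
    exact c1
  · have := congrArg (fun y => 12 • y) a1
    simp only [smul_smul, smul_zero] at this
    rw [map_nsmul, map_nsmul, eq_neg_iff_add_eq_zero, ← nsmul_add]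
    exact this
  · have := congrArg (fun y => 12 • y) a2
    simp only [smul_smul, smul_zero] at this
    rw [map_nsmul, map_nsmul, ← sub_eq_zero, ← nsmul_sub]
    exact this

theorem cyq : CYQ := by
  intro g X b1 b2 c1 c2 a1 a2 z tor hA st
  refine prime_red _ tor fun l k m hl hz => ?_
  have st' : ∀ σ : GQ, σ (X.i : Qb) = X.i →
      ∃ c, actP (X.R σ) (m • z) = gs (actP X.P.sI) c (m • z) := fun σ h =>
    (st σ h).imp fun c hc => by rw [map_nsmul, gs_nsmul, hc]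
  have nd : ∀ {q : ℕ}, q.Prime → q ≠ l → ¬ q ∣ l ^ k := fun hq hne h =>
    hne ((Nat.prime_dvd_prime_iff_eq hq hl).1 (hq.dvd_of_dvd_pow h))
  obtain ⟨p0, ha, h0⟩ : ∃ p0, AuxQ X p0 ∧ ¬ p0 ∣ l ^ k := by
    by_cases h : 7 = l
    · exact ⟨19, a2, nd (by norm_num) (by omega)⟩
    · exact ⟨7, a1, nd (by norm_num) h⟩
  by_cases h : 11 = l
  · rw [KK, mul_left_comm, mul_smul,
      one_prime X c2 ha (nd (by norm_num) (by omega)) h0 hz (hA.nsmul m) st', smul_zero]
  · rw [KK, ← mul_assoc, mul_comm, mul_smul,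
      one_prime X c1 ha (nd (by norm_num) h) h0 hz (hA.nsmul m) st', smul_zero]

end Vale.Agent.P027M.B2
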