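import Vale.Agent.P027M.B2.Abs
import Vale.Agent.P027M.F.Defs
import Vale.Agent.P027M.FA.Defs
import Vale.Agent.P027M.X.ToPc
import Vale.Agent.P027M.X.MerDefs

/-! # P027, route M, block B2 : statements (owner helper99) -/

set_option linter.all false

noncomputable section

namespace Vale.Agent.P027M.B2

open NumberField Polynomial Filter Topology Vale.Agent.P022 Vale.Agent.P019P P025H492 P025H816
  _root_.P027M.K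
open Vale.Agent.P027M.F (Par Tw Cfg)
open Vale.Agent.P027M.B (Hyp)
open Vale.Agent.P027M.X (PicP cl pmap IsExp tw toPc ofPc)

section
variable {k : Type} [Field k] [IsAlgClosed k] (P : Par k)

/-- the part `τ = 1`, `ι ^ 2 = -1`, `1 + ρ + ρ ^ 2 = 0` of the class group of `FF` -/
def InA (z : Pc k P.FF) : Prop := actP P.sT z = z ∧ z ∈ PT (actP P.sI) (actP P.sR)

/-- `e' (r + p ι ^ e r⁻¹ - c (b0 + b1 ι))` kills the `n`-torsion of `FC` (the last clause of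
`FA.COREP`, literally) -/
def KillC (r : RingAut P.FF) (sw : Bool) (p e n : ℕ) (b0 b1 : ℤ) : Prop :=
  ∀ h ∈ divU k P.FC n, ∃ y : P.FF,
    ∏ a, ((FA.gs P a * r) ((h : P.FC) : P.FF) *
      (FA.gs P a * P.iota ^ e * r⁻¹) ((h : P.FC) : P.FF) ^ p *
      ∏ b, ((FA.gs P a * FA.hs P sw b) ((h : P.FC) : P.FF) ^ b0 *
        (FA.gs P a * FA.hs P sw b * P.iota) ((h : P.FC) : P.FF) ^ b1) ^ (-FA.cc sw b)) ^ FA.cs a =
      y ^ n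

/-- the correspondence `N ρ j` on the class group of `C` -/
def HH (h : Hyp P.fP P.mC P.wC) : PicP P.fP →+ PicP P.fP :=
  (ofPc h).comp ((pushP P.FC).comp ((actP P.sR).comp ((pullP P.FF).comp (toPc h))))

end

section
variable {k : Type} [Field k] (P : Par k)

/-- the other roots of the cubic -/
def mm (μ ζ : k) : k := ((1 - P.c) * P.g0 * μ + ζ) / (2 * (μ ^ 2 - P.g0))

/-- the coordinate `Y` of the point `(μ, s)` -/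
def yy (μ s : k) : k := s * (μ ^ 2 - P.g * P.g0) / (μ ^ 2 - P.g0) ^ 2

/-- the coordinate `W` of the point above `y` with abscissa `m` -/
def ww (m y : k) : k := y * (m ^ 2 - P.g0) ^ 2 / (m ^ 2 - P.g * P.g0)

/-- `ω_E = (m ^ 2 - κ) dm / w` -/
def kap : k := (3 - P.g) / (P.g + 1) * P.g0

end

section
variable {g : ℚ} (X : Cfg g)

/-- **input from FAITH and RED** : a Frobenius element at `p ≡ 3 mod 4`, in characteristic `0` -/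
def KillQ (p : ℕ) (b : GaussianInt) : Prop := ∃ (φ : GQ) (e : ℕ), φ (X.i : Qb) ≠ X.i ∧
  ∀ n : ℕ, ¬ p ∣ n → KillC X.P (X.r φ) true p e n b.re b.im

/-- the characteristic equation of Frobenius on the torsion of the `A`-part -/
def ChQ (p : ℕ) (b : GaussianInt) : Prop := ∃ (φ : GQ) (e : GaussianInt), φ (X.i : Qb) ≠ X.i ∧
  ∀ n : ℕ, ¬ p ∣ n → ∀ z : Pc Qb X.P.FF, n • z = 0 → InA X.P z →
    12 • (actP (X.R φ) (actP (X.R φ) z) + gs (actP X.P.sI) e z) =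
      12 • gs (actP X.P.sI) b (actP X.P.sI (actP X.P.sR (actP (X.R φ) z) -
        actP X.P.sR (actP X.P.sR (actP (X.R φ) z))))

/-- tame inertia at an auxiliary prime -/
def AuxQ (p : ℕ) : Prop := ∃ s ψ : GQ, s (X.i : Qb) = X.i ∧ ψ (X.i : Qb) ≠ X.i ∧
  ∀ n : ℕ, ¬ p ∣ n → ∀ z : Pc Qb X.P.FF, n • z = 0 → InA X.P z →
    2 • (actP (X.R s) (actP (X.R s) z) + z) = 0 ∧
      2 • (actP (X.R (ψ * s * ψ⁻¹)) (actP (X.R s) z) - z) = 0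

/-- stable cyclic modules are killed by `K0` -/
def CycQ (K0 : ℕ) : Prop := ∀ z : Pc Qb X.P.FF, (∃ n : ℕ, n ≠ 0 ∧ n • z = 0) → InA X.P z →
  (∀ σ : GQ, σ (X.i : Qb) = X.i → ∃ c, actP (X.R σ) z = gs (actP X.P.sI) c z) → K0 • z = 0

end

/-- the same over `ℂ` -/
def CycC (P : Par ℂ) (K0 : ℕ) : Prop := ∀ z : Pc ℂ P.FF, (∃ n : ℕ, n ≠ 0 ∧ n • z = 0) →
  InA P z → (∀ θ : SL ℂ P.FF, res0 θ Complex.I = Complex.I → (θ : P.FF ≃+* P.FF) P.M1 = P.M1 →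
    (θ : P.FF ≃+* P.FF) P.M2 = P.M2 → (θ : P.FF ≃+* P.FF) P.M3 = P.M3 →
    (θ : P.FF ≃+* P.FF) P.Y = P.Y → res0 θ P.g = P.g → res0 θ P.g0 = P.g0 →
    ∃ c, actP θ z = gs (actP P.sI) c z) → K0 • z = 0

/-- the constant -/
def KK (b1 b2 : GaussianInt) : ℕ := 24 * ((6 * b1 ^ 2).norm.natAbs * (6 * b2 ^ 2).norm.natAbs)

/-! ### rows -/

/-- [B2.JN] `j N = 1 + τ`, `N j = 2`, and `j` is natural, on torsion classes -/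
def JN : Prop := ∀ (k : Type) [Field k] [IsAlgClosed k] (P : Par k),
  (∀ (n : ℕ) (z : Pc k P.FF), n ≠ 0 → n • z = 0 →
    pullP P.FF (pushP P.FC z) = z + actP P.sT z) ∧
  (∀ x : Pc k P.FC, pushP P.FC (pullP P.FF x) = 2 • x) ∧
  ∀ (θ : SL k P.FF) (θ' : SL k P.FC) (n : ℕ) (x : Pc k P.FC), n ≠ 0 → n • x = 0 →
    (∀ z : P.FC, (θ : P.FF ≃+* P.FF) z = ((θ' : P.FC ≃+* P.FC) z : P.FC)) →
    actP θ (pullP P.FF x) = pullP P.FF (actP θ' x)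

/-- [B2.KC] from functions to classes; from `JN` -/
def KC : Prop := ∀ (g : ℚ) (X : Cfg g) (p : ℕ) (b : GaussianInt), KillQ X p b → ChQ X p b

/-- [B2.GAL] a tame generator and a Frobenius element -/
def GAL : Prop := ∀ (p : ℕ) (i : Qb), p.Prime → p % 4 = 3 → i ^ 2 = -1 →
  ∃ (P : Ideal (𝓞 Qb)) (t : Qb) (s ψ : GQ), P.IsPrime ∧ (p : 𝓞 Qb) ∈ P ∧ t ^ 4 = p ∧
    s ∈ D.inr P ∧ s t = i * t ∧ ψ i = -i ∧ ψ * s * ψ⁻¹ ∈ D.inr P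

/-- [B2.AUX] from `GAL`, `JN` and block D (`OUTA`, `FIXU`, `RATV`, `Spec_OVER`) -/
def AUX : Prop := ∀ (g : ℚ) (X : Cfg g) (p : ℕ), Std g → p = 7 ∨ p = 19 → AuxQ X p

/-- [B2.CYQ] from `abs_core`, `prime_red` -/
def CYQ : Prop := ∀ (g : ℚ) (X : Cfg g) (b1 b2 : GaussianInt), ChQ X 11 b1 → ChQ X 23 b2 →
  AuxQ X 7 → AuxQ X 19 → CycQ X (KK b1 b2)

/-- [B2.BC] base change and scaling -/
def BC : Prop := ∀ (g : ℚ) (X : Cfg g) (e : Qb →+* ℂ) (r : ℂ) (P : Par ℂ) (K0 : ℕ), r ≠ 0 →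
  (∀ σ : ℂ ≃+* ℂ, σ Complex.I = Complex.I → σ r = r) → P.g = e X.P.g → P.i = e X.P.i →
  P.g0 = e X.P.g0 * r ^ 4 → CycQ X K0 → CycC P K0

/-- [B2.HP] the correspondence on a generic point -/
def HP : Prop := ∀ (k : Type) [Field k] [IsAlgClosed k] (P : Par k) (h : Hyp P.fP P.mC P.wC),
  ∃ c : PicP P.fP, ∀ μ s ζ : k, s ^ 2 = P.fP.eval μ → ζ ^ 2 = P.dP.eval μ → ζ ≠ 0 →
    μ ^ 2 ≠ P.g0 → mm P μ ζ ^ 2 ≠ P.g * P.g0 → mm P μ (-ζ) ^ 2 ≠ P.g * P.g0 →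
    HH P h (cl P.fP (μ, s)) = cl P.fP (mm P μ ζ, ww P (mm P μ ζ) (yy P μ s)) +
      cl P.fP (mm P μ (-ζ), ww P (mm P μ (-ζ)) (yy P μ s)) + c

/-- [B2.HA] an endomorphism which sends a generic point to its two mates is `-1` on the
exponentials of the plane `ω_E = 0`; from `X.eqv` -/
def HA : Prop := ∀ (P : Par ℂ) (G : Type) [AddCommGroup G] (pt : ℂ → ℂ → G)
  (E : (Fin 3 → ℂ) →+ G) (H : G →+ G) (c : G), IsExp P.fP pt E →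
  (∀ μ s ζ : ℂ, s ^ 2 = P.fP.eval μ → ζ ^ 2 = P.dP.eval μ → ζ ≠ 0 →
    μ ^ 2 ≠ P.g0 → mm P μ ζ ^ 2 ≠ P.g * P.g0 → mm P μ (-ζ) ^ 2 ≠ P.g * P.g0 →
    H (pt μ s) = pt (mm P μ ζ) (ww P (mm P μ ζ) (yy P μ s)) +
      pt (mm P μ (-ζ)) (ww P (mm P μ (-ζ)) (yy P μ s)) + c) →
  ∀ t : Fin 3 → ℂ, t 2 = kap P * t 0 → H (E t) = -E t

/-- **the output of B2**: `T = e g0 * r ^ 4` is the twist of the model -/
def OUT : Prop := ∀ (g : ℚ) (X : Cfg g) (b1 b2 : GaussianInt) (e : Qb →+* ℂ) (r T : ℂ) (F : ℂ[X])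
  (E : (Fin 3 → ℂ) →+ PicP F) (Pi : AddSubgroup (Fin 3 → ℂ)), Std g →
  KillQ X 11 b1 → KillQ X 23 b2 → r ≠ 0 →
  (∀ σ : ℂ ≃+* ℂ, σ Complex.I = Complex.I → σ r = r) → T = e X.P.g0 * r ^ 4 →
  F = Polynomial.X * (Polynomial.X ^ 2 - C T) * (Polynomial.X ^ 2 - C ((c3 g : ℚ) * T)) *
    (Polynomial.X ^ 2 - C ((d2 g : ℚ) * T)) →
  IsExp F (fun m w => cl F (m, w)) E →
  (∀ z ∈ Pi, z 2 = (((3 - g) / (g + 1) : ℚ) : ℂ) * T * z 0) → (∀ z ∈ Pi, tw Complex.I z ∈ Pi) →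
  (∀ z : Fin 3 → ℂ, z 2 = (((3 - g) / (g + 1) : ℚ) : ℂ) * T * z 0 →
    z ∈ Submodule.span ℝ (Pi : Set (Fin 3 → ℂ))) →
  (∃ M : ℕ, M ≠ 0 ∧ ∀ z ∈ Pi, E ((M : ℂ) • z) = 0) →
  (∀ (m : ℕ) (σ : ℂ ≃+* ℂ) (hσ : F.map (σ : ℂ →+* ℂ) = F), m ≠ 0 → σ Complex.I = Complex.I →
    ∀ z ∈ Pi, ∃ z' ∈ Pi, pmap (σ : ℂ →+* ℂ) hσ (E ((m : ℂ)⁻¹ • z)) = E ((m : ℂ)⁻¹ • z')) →
  ∃ x y : ℚ, (x ≠ 0 ∨ y ≠ 0) ∧ (∀ z ∈ Pi, E (tw (x + y * Complex.I) z) = 0) ∧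
    ∀ z : Fin 3 → ℂ, z 2 = (((3 - g) / (g + 1) : ℚ) : ℂ) * T * z 0 → E z = 0 →
      ∃ z' ∈ Pi, ((2 * KK b1 b2 : ℕ) : ℂ) • z = tw (x + y * Complex.I) z'

end Vale.Agent.P027M.B2
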