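import Vale.Agent.P027M.B2.Defs
import Vale.Agent.P027M.TW.Ram
import Vale.Agent.P022.H20.Frob
import Vale.Agent.P022.H916.Fld

/-! # P027, route M, block B2 : a tame generator and a Frobenius element (row GAL) -/

set_option linter.all false

noncomputable section

namespace Vale.Agent.P027M.B2

open NumberField Polynomial IntermediateField Vale.Agent.P022 Vale.Agent.P022.H916

namespace Gal

variable {p n : ℕ}

theorem eis (hp : p.Prime) (hn : n ≠ 0) :
    (X ^ n - C (p : ℤ)).IsEisensteinAt (Ideal.span {(p : ℤ)}) := by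
  have h1 : Prime (p : ℤ) := Nat.prime_iff_prime_int.1 hp
  refine ⟨?_, fun {k} hk => ?_, ?_⟩
  · rw [(monic_X_pow_sub_C _ hn).leadingCoeff, Ideal.mem_span_singleton]
    exact h1.not_dvd_one
  · rw [natDegree_X_pow_sub_C] at hk
    rw [coeff_sub, coeff_X_pow, if_neg hk.ne, zero_sub, coeff_C, Ideal.mem_span_singleton]
    split_ifs
    · exact dvd_rfl.neg_right
    · exact (dvd_zero _).neg_right
  · rw [coeff_sub, coeff_X_pow, if_neg hn.symm, zero_sub, coeff_C_zero, Ideal.span_singleton_pow,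
      Ideal.mem_span_singleton, dvd_neg]
    exact fun h => h1.not_unit (h1.irreducible.squarefree _ (by rwa [← sq]))

theorem intg {A : Type} [CommRing A] {t : A} (hn : n ≠ 0) (ht : t ^ n = p) : IsIntegral ℤ t :=
  IsIntegral.of_pow (Nat.pos_of_ne_zero hn) (by rw [ht]; exact isIntegral_natCast p)

theorem mp {A : Type} [Field A] [CharZero A] {t : A} (hp : p.Prime) (hn : n ≠ 0)
    (ht : t ^ n = p) : minpoly ℤ t = X ^ n - C (p : ℤ) := by
  have hm := monic_X_pow_sub_C (p : ℤ) hn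
  have h1 := (eis hp hn).irreducible
    ((Ideal.span_singleton_prime (by exact_mod_cast hp.ne_zero)).2 (Nat.prime_iff_prime_int.1 hp))
    hm.isPrimitive (by rw [natDegree_X_pow_sub_C]; exact Nat.pos_of_ne_zero hn)
  have h2 := intg hn ht
  have h3 : minpoly ℤ t ∣ X ^ n - C (p : ℤ) := minpoly.isIntegrallyClosed_dvd h2 (by
    rw [map_sub, map_pow, aeval_X, aeval_C, ht, map_natCast, sub_self])
  exact eq_of_monic_of_associated (minpoly.monic h2) hm
    ((minpoly.irreducible h2).associated_of_dvd h1 h3)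

variable {P : Ideal (𝓞 Qb)}

theorem not_mem (hp : p.Prime) (hP : P.IsPrime) (h : (p : 𝓞 Qb) ∈ P) {m : ℤ}
    (hm : ¬ (p : ℤ) ∣ m) : (m : 𝓞 Qb) ∉ P := by
  intro h3
  obtain ⟨a, b, h4⟩ := ((Nat.prime_iff_prime_int.1 hp).irreducible.coprime_iff_not_dvd.2 hm).map
    (Int.castRingHom (𝓞 Qb))
  rw [map_natCast] at h4
  exact hP.one_notMem (h4 ▸ P.add_mem (P.mul_mem_left a h) (P.mul_mem_left b h3))

/-- `ℚ(p ^ (1 / n))` is totally ramified at `p` -/
theorem cong (hp : p.Prime) (hn : n ≠ 0) (hP : P.IsPrime) (h : (p : 𝓞 Qb) ∈ P) {t : Qb}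
    (ht : t ^ n = p) (g : GQ) (y : 𝓞 ℚ⟮t⟯) :
    g • RingOfIntegers.mapRingHom (algebraMap ℚ⟮t⟯ Qb) y -
      RingOfIntegers.mapRingHom (algebraMap ℚ⟮t⟯ Qb) y ∈ P := by
  have h0 : IsIntegral ℚ t := (intg hn ht).tower_top
  let B := adjoin.powerBasis h0
  have hB : B.gen ^ n = p := Subtype.ext (by
    rw [SubmonoidClass.coe_pow, SubringClass.coe_natCast]
    exact ht)
  have h1 := Nat.prime_iff_prime_int.1 hp
  obtain ⟨N, hN⟩ := multiple_mem_adjoin_of_mem_localization_adjoin (nonZeroDivisors ℤ) ℚ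
    {B.gen} (y : ℚ⟮t⟯) (B.adjoin_gen_eq_top.ge Algebra.mem_top)
  obtain ⟨k, m, hm, e⟩ := WfDvdMonoid.max_power_factor (nonZeroDivisors.ne_zero N.2) h1.irreducible
  rw [Submonoid.smul_def, e, mul_smul] at hN
  have h2 := mem_adjoin_of_smul_prime_pow_smul_of_minpoly_isEisensteinAt h1 (intg hn hB)
    (IsIntegral.smul m y.2) hN (by rw [mp hp hn hB]; exact eis hp hn)
  have key : ∀ z ∈ Algebra.adjoin ℤ {B.gen}, ∃ w : 𝓞 Qb, (w : Qb) = z ∧ g • w - w ∈ P := by
    intro z hz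
    induction hz using Algebra.adjoin_induction with
    | mem x hx =>
      obtain rfl : x = B.gen := hx
      let w : 𝓞 Qb := ⟨t, intg hn ht⟩
      have e1 : w ^ n = p := RingOfIntegers.ext ((map_pow (algebraMap (𝓞 Qb) Qb) w n).trans
        (ht.trans (map_natCast (algebraMap (𝓞 Qb) Qb) p).symm))
      refine ⟨w, rfl, P.sub_mem (hP.mem_of_pow_mem n ?_) (hP.mem_of_pow_mem n (e1 ▸ h))⟩
      rw [← smul_pow', e1, ← MulSemiringAction.toRingHom_apply, map_natCast]
      exact h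
    | algebraMap r =>
      refine ⟨r, rfl, ?_⟩
      rw [← MulSemiringAction.toRingHom_apply, map_intCast, sub_self]
      exact P.zero_mem
    | add x y _ _ hx hy =>
      obtain ⟨u, u1, u2⟩ := hx
      obtain ⟨v, v1, v2⟩ := hy
      refine ⟨u + v, by rw [AddMemClass.coe_add, ← u1, ← v1]; rfl, ?_⟩
      rw [smul_add, add_sub_add_comm]
      exact P.add_mem u2 v2
    | mul x y _ _ hx hy =>
      obtain ⟨u, u1, u2⟩ := hx
      obtain ⟨v, v1, v2⟩ := hy
      refine ⟨u * v, by rw [MulMemClass.coe_mul, ← u1, ← v1]; rfl, ?_⟩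
      rw [smul_mul', show g • u * g • v - u * v = (g • u - u) * g • v + u * (g • v - v) by ring]
      exact P.add_mem (P.mul_mem_right _ u2) (P.mul_mem_left _ v2)
  obtain ⟨w, w1, w2⟩ := key _ h2
  have e2 : w = m * RingOfIntegers.mapRingHom (algebraMap ℚ⟮t⟯ Qb) y := RingOfIntegers.ext (by
    refine w1.trans ?_
    rw [zsmul_eq_mul, MulMemClass.coe_mul]
    rfl)
  have e3 : g • (m : 𝓞 Qb) = m := map_intCast (MulSemiringAction.toRingHom GQ (𝓞 Qb) g) m
  rw [e2, smul_mul', e3, ← mul_sub] at w2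
  exact (hP.mem_or_mem w2).resolve_left (not_mem hp hP h hm)

/-- inertia moves `p ^ (1 / n)` by a conjugate of any given root of unity -/
theorem move (hp : p.Prime) (hn : n ≠ 0) (hP : P.IsPrime) (h : (p : 𝓞 Qb) ∈ P) {t ζ : Qb}
    (ht : t ^ n = p) (hζ : ζ ^ n = 1) : ∃ σ ∈ D.inr P, ∃ u : GQ, σ t = u ζ * t := by
  have h0 : IsIntegral ℚ t := (intg hn ht).tower_top
  have : FiniteDimensional ℚ ℚ⟮t⟯ := adjoin.finiteDimensional h0
  have : NumberField ℚ⟮t⟯ := NumberField.of_module_finite ℚ ℚ⟮t⟯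
  obtain ⟨g₀, hg⟩ := minpoly.exists_algEquiv_of_root' (K := ℚ) (x := ζ * t) (y := t)
    h0.isAlgebraic (by
      rw [minpoly.isIntegrallyClosed_eq_field_fractions' ℚ (intg hn ht), mp hp hn ht,
        aeval_map_algebraMap, map_sub, map_pow, aeval_X, aeval_C, mul_pow, hζ, ht, one_mul,
        map_natCast, sub_self])
  obtain ⟨σ, h1, u, hu, rfl⟩ := TW.Ram.lift (algebraMap ℚ⟮t⟯ Qb) hP (cong hp hn hP h ht) g₀
  refine ⟨_, h1, u, ?_⟩
  rw [AlgEquiv.mul_apply, hg, map_mul]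
  exact congrArg _ (hu (AdjoinSimple.gen ℚ t))

theorem pm {i : Qb} (hi : i ^ 2 = -1) (u : GQ) : u i = i ∨ u i = -i :=
  sq_eq_sq_iff_eq_or_eq_neg.1 (by rw [← map_pow, hi, map_neg, map_one])

end Gal

open Gal in
theorem gal : GAL := by
  intro p i hp h4 hi
  obtain ⟨ψ, P, hP, h, hψ⟩ := H20.exists_isFrob hp
  obtain ⟨t, ht⟩ := IsAlgClosed.exists_pow_nat_eq (p : Qb) (n := 4) (by norm_num)
  have i4 : i ^ 4 = 1 := by rw [show 4 = 2 * 2 from rfl, pow_mul, hi]; norm_num
  let I : 𝓞 Qb := ⟨i, IsIntegral.of_pow (n := 4) (by norm_num) (by rw [i4]; exact isIntegral_one)⟩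
  have I2 : I ^ 2 = -1 := RingOfIntegers.ext ((map_pow (algebraMap (𝓞 Qb) Qb) I 2).trans hi)
  have n2 : 2 * I ∉ P := by
    intro k
    rcases hP.mem_or_mem k with k | k
    · refine not_mem hp hP h (m := 2) (fun d => ?_) (by exact_mod_cast k)
      have := Nat.le_of_dvd two_pos (Int.natCast_dvd_natCast.1 d)
      omega
    · have := P.neg_mem (P.pow_mem_of_mem k 2 two_pos)
      rw [I2, neg_neg] at this
      exact hP.one_notMem this
  have fi : ∀ s ∈ D.inr P, s i = i := fun s hs => (pm hi s).resolve_right fun e => n2 (by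
    have e1 : s • I = -I := RingOfIntegers.ext e
    have := P.neg_mem (D.mem_inr.1 hs I)
    rwa [e1, show -(-I - I) = 2 * I by ring] at this)
  obtain ⟨s, hs, hst⟩ : ∃ s ∈ D.inr P, s t = i * t := by
    obtain ⟨σ, h1, u, h2⟩ := move hp (by norm_num) hP h ht i4
    rcases pm hi u with e | e
    · exact ⟨σ, h1, by rw [h2, e]⟩
    · refine ⟨σ * σ * σ, mul_mem (mul_mem h1 h1) h1, ?_⟩
      rw [e] at h2
      simp only [AlgEquiv.mul_apply, h2, map_mul, map_neg, fi σ h1]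
      linear_combination (-i * t) * hi
  refine ⟨P, t, s, ψ, hP, h, ht, hs, hst, (pm hi ψ).resolve_left fun e => n2 ?_,
    D.mem_inr.2 fun x => ?_⟩
  · have e1 : ψ • I = I := RingOfIntegers.ext e
    have e2 : I ^ p = -I := by
      rw [← Nat.div_add_mod p 4, h4, pow_add, pow_mul, show 4 = 2 * 2 from rfl, pow_mul, I2,
        pow_succ I 2, I2]
      norm_num
    have := hψ I
    rwa [e1, e2, show I - -I = 2 * I by ring] at this
  · have h1 := (mem_of_frob hP hp.ne_zero hψ _).2 (D.mem_inr.1 hs (ψ⁻¹ • x))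
    rwa [smul_sub, smul_inv_smul, ← mul_smul, ← mul_smul] at h1

end Vale.Agent.P027M.B2
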