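import Vale.Agent.P027M.B2.Defs
import Vale.Agent.P027M.F.Sub

/-! # P027, route M, block B2 : pull back and norm between `FC` and `FF` on torsion classes -/

set_option linter.all false

noncomputable section

namespace Vale.Agent.P027M.B2

open Vale.Agent.P019P P025H492 P025H816 _root_.P027M.K
open Vale.Agent.P027M.F (Par)

theorem jn : JN := by
  intro k _ _ P
  obtain ⟨⟨hG, -⟩, ⟨h2, -⟩, hA, -⟩ := F.sub k P
  refine ⟨fun n z hn hz => ?_, fun x => by rw [pushP_pullP, h2], fun θ θ' n x hn hx h => ?_⟩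
  · classical
    obtain ⟨g, hg, rfl⟩ := exists_tP hn hz
    let t : P.FF ≃ₐ[P.FC] P.FF := AlgEquiv.ofRingEquiv (f := P.tau) fun z => P.mem_FC.1 z.2
    have hu : (Finset.univ : Finset (P.FF ≃ₐ[P.FC] P.FF)) = {1, t} := by
      ext σ
      simp only [Finset.mem_univ, Finset.mem_insert, Finset.mem_singleton, true_iff]
      rcases hA σ with e | e
      · exact Or.inl (AlgEquiv.ext fun y => (DFunLike.congr_fun e y : σ.toRingEquiv y = _))
      · exact Or.inr (AlgEquiv.ext fun y => (DFunLike.congr_fun e y : σ.toRingEquiv y = _))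
    have hne : (1 : P.FF ≃ₐ[P.FC] P.FF) ≠ t := fun e => by
      have h1 := congrArg Finset.card hu
      rw [← e, Finset.insert_eq_of_mem (Finset.mem_singleton_self _), Finset.card_singleton,
        Finset.card_univ, ← Nat.card_eq_fintype_card, IsGalois.card_aut_eq_finrank, h2] at h1
      omega
    have h1 : jU P.FF (nU P.FC g) = g * mU (P.sT : P.FF ≃+* P.FF) g := by
      ext
      rw [jU_val, nU_val, Algebra.norm_eq_prod_automorphisms, hu, Finset.prod_pair hne]
      rfl
    rw [pushP_tP hn hg, pullP_tP hn (nU_mem hg), h1, tP_mul hn hg (act_mem _ hg), actP_tP _ hn hg]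
  · obtain ⟨f, hf, rfl⟩ := exists_tP hn hx
    rw [pullP_tP hn hf, actP_tP θ hn (jU_mem hf), actP_tP θ' hn hf, pullP_tP hn (act_mem θ' hf)]
    exact congrArg _ (Units.ext (h f))

section
variable {k : Type} [Field k] [IsAlgClosed k] {P : Par k}

theorem act_comm {θ θ' : SL k P.FF} (h : (θ : P.FF ≃+* P.FF) * θ' = θ' * θ) (y : Pc k P.FF) :
    actP θ (actP θ' y) = actP θ' (actP θ y) := by
  rw [← actP_mul, ← actP_mul]
  exact congrArg (fun t => actP t y) (Subtype.ext h)

theorem rho3 (y : Pc k P.FF) : actP P.sR (actP P.sR (actP P.sR y)) = y := by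
  rw [← actP_mul, ← actP_mul]
  exact (congrArg (fun t => actP t y) (Subtype.ext P.rho_cube)).trans (actP_one y)

theorem rho_iota (y : Pc k P.FF) : actP P.sR (actP P.sI y) = actP P.sI (actP P.sR y) :=
  act_comm P.iota_rho.symm y

theorem tau_rho (y : Pc k P.FF) :
    actP P.sT (actP P.sR y) = actP P.sR (actP P.sR (actP P.sT y)) := by
  rw [← actP_mul, ← actP_mul, ← actP_mul]
  exact congrArg (fun t => actP t y) (Subtype.ext P.tau_rho)

theorem InA.nsmul {z : Pc k P.FF} (h : InA P z) (m : ℕ) : InA P (m • z) :=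
  ⟨by rw [map_nsmul, h.1], AddSubgroup.nsmul_mem _ h.2 m⟩

/-- a torsion class fixed by `τ` comes from `FC`, up to the factor `2` -/
theorem exists_two {n : ℕ} (hn : n ≠ 0) {z : Pc k P.FF} (hz : n • z = 0) (h : actP P.sT z = z) :
    ∃ f ∈ divU k P.FC n, tP k n (jU P.FF f) = 2 • z := by
  obtain ⟨f, hf, e⟩ := exists_tP hn (x := pushP P.FC z) (by rw [← map_nsmul, hz, map_zero])
  exact ⟨f, hf, by rw [← pullP_tP hn hf, e, (jn k P).1 n z hn hz, h, two_nsmul]⟩

end

end Vale.Agent.P027M.B2
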