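import Vale.Agent.P027M.B2.Jn

/-! # P027, route M, block B2 : from the identity between functions to the classes -/

set_option linter.all false

noncomputable section

namespace Vale.Agent.P027M.B2

open Vale.Agent.P022 Vale.Agent.P019P P025H492 P025H816 _root_.P027M.K
open Vale.Agent.P027M.F (Par)

section
variable {k : Type} [Field k] [IsAlgClosed k] {P : Par k}

theorem act_pow (e : ℕ) {y : Pc k P.FF} (h : actP P.sI (actP P.sI y) = -y) :
    actP (P.sI ^ e) y = gs (actP P.sI) ((⟨0, 1⟩ : GaussianInt) ^ e) y := by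
  induction e with
  | zero => rw [pow_zero, pow_zero, actP_one]; simp [gs]
  | succ e ih => rw [pow_succ', pow_succ', actP_mul, ih, gs_mul _ _ _ h]; simp [gs]

theorem kc0 (r : SL k P.FF) (hι : ∀ y, actP r (actP P.sI y) = actP P.sI (actP r y))
    (hρ : ∀ y, actP r (actP P.sR y) = actP P.sR (actP r y)) {p e n : ℕ} {b : GaussianInt}
    (hn : n ≠ 0) (K : KillC P r true p e n b.re b.im) {z : Pc k P.FF} (hz : n • z = 0)
    (hA : InA P z) :
    12 • (actP r (actP r z) + gs (actP P.sI) (p * (⟨0, 1⟩ : GaussianInt) ^ e) z) =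
      12 • gs (actP P.sI) b (actP P.sI (actP P.sR (actP r z) -
        actP P.sR (actP P.sR (actP r z)))) := by
  obtain ⟨f, hf, hx⟩ := exists_two hn hz hA.1
  obtain ⟨y, hy⟩ := K f hf
  let A : SL k P.FF → divU k P.FF n := fun θ => ⟨_, act_mem θ (jU_mem (L := P.FF) hf)⟩
  let Φ : divU k P.FF n →* Multiplicative (Pc k P.FF) :=
    MonoidHom.mk' (fun u => Multiplicative.ofAdd (tP k n (u : (P.FF)ˣ))) fun u v =>
      congrArg Multiplicative.ofAdd (tP_mul hn u.2 v.2)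
  let V : divU k P.FF n →* P.FF := (Units.coeHom _).comp (Subgroup.subtype _)
  have hΦ : ∀ θ, Φ (A θ) = Multiplicative.ofAdd (actP θ (2 • z)) := fun θ => by
    rw [← hx, actP_tP θ hn (jU_mem hf)]; rfl
  have hV : ∀ θ, V (A θ) = (θ : P.FF ≃+* P.FF) ((f : P.FC) : P.FF) := fun θ => rfl
  let G : Fin 6 → SL k P.FF :=
    ![1, P.sR, P.sR * P.sR, P.sI * P.sI, P.sI * P.sI * P.sR, P.sI * P.sI * (P.sR * P.sR)]
  let W : Fin 2 → SL k P.FF := ![P.sI * P.sR, P.sI * (P.sR * P.sR)]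
  have hG : ∀ a, (G a : P.FF ≃+* P.FF) = FA.gs P a := fun a => by fin_cases a <;> rfl
  have hW : ∀ a, (W a : P.FF ≃+* P.FF) = FA.hs P true a := fun a => by fin_cases a <;> rfl
  let U : divU k P.FF n := ∏ a, (A (G a * r) * A (G a * P.sI ^ e * r⁻¹) ^ p *
    ∏ c, (A (G a * W c) ^ b.re * A (G a * W c * P.sI) ^ b.im) ^ (-FA.cc true c)) ^ FA.cs a
  have h1 : V U = y ^ n := by
    rw [← hy]
    simp only [U, map_prod, map_mul, map_zpow, map_pow, hV, Subgroup.coe_mul, Subgroup.coe_pow,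
      Subgroup.coe_inv, hG, hW]
    rfl
  have h2 : Φ U = 1 := (tP_eq_zero_iff hn U.2).2 (mem_powU'.2 ⟨y, h1.symm⟩)
  simp only [U, map_prod, map_mul, map_zpow, map_pow, hΦ] at h2
  have h3 := congrArg Multiplicative.toAdd h2
  simp only [toAdd_prod, toAdd_zpow, toAdd_mul, toAdd_pow, toAdd_ofAdd, toAdd_one, actP_mul,
    ← map_nsmul, ← map_zsmul, ← map_add, ← map_sum] at h3
  have rr : ∀ y, actP r (actP r⁻¹ y) = y := fun y => by rw [← actP_mul, mul_inv_cancel, actP_one]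
  have rr' : ∀ y, actP r⁻¹ (actP r y) = y := fun y => by rw [← actP_mul, inv_mul_cancel, actP_one]
  have m1 := PT_map (actP r) hι hρ hA.2
  have m2 : actP r⁻¹ z ∈ PT (actP P.sI) (actP P.sR) := PT_map (actP r⁻¹)
    (fun y => by rw [← rr y, ← hι, rr', rr']) (fun y => by rw [← rr y, ← hρ, rr', rr']) hA.2
  have pι : ∀ {y}, y ∈ PT (actP P.sI) (actP P.sR) → actP P.sI y ∈ PT (actP P.sI) (actP P.sR) :=
    fun h => PT_map _ (fun _ => rfl) (fun y => (rho_iota y).symm) h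
  have pρ : ∀ {y}, y ∈ PT (actP P.sI) (actP P.sR) → actP P.sR y ∈ PT (actP P.sI) (actP P.sR) :=
    fun h => PT_map _ rho_iota (fun _ => rfl) h
  have six : ∀ u ∈ PT (actP P.sI) (actP P.sR), ∑ a, actP (G a) (FA.cs a • u) = 6 • u := by
    intro u hu
    have e1 := (pρ hu).1
    have e2 := (pρ (pρ hu)).1
    have e3 : actP P.sR (actP P.sR u) = -u - actP P.sR u := by rw [← sub_eq_zero, ← hu.2]; abel
    simp only [Fin.sum_univ_succ, Finset.univ_eq_empty, Finset.sum_empty, G, FA.cs,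
      Matrix.cons_val_zero, Matrix.cons_val_succ, actP_mul, actP_one, map_zsmul, hu.1, e1, e2]
    rw [e3]
    module
  have e1 : actP r (2 • z) + actP (P.sI ^ e) (actP r⁻¹ (p • 2 • z)) +
      ∑ c, actP (W c) (-FA.cc true c • (b.re • 2 • z + actP P.sI (b.im • 2 • z))) =
      2 • (actP r z + gs (actP P.sI) (p * (⟨0, 1⟩ : GaussianInt) ^ e) (actP r⁻¹ z) -
        gs (actP P.sI) b (actP P.sI (actP P.sR z - actP P.sR (actP P.sR z)))) := by
    rw [gs_mul _ _ _ m2.1, gs_nat, ← act_pow e m2.1]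
    simp only [Fin.sum_univ_two, W, FA.cc, if_true, Matrix.cons_val_zero, Matrix.cons_val_one,
      actP_mul, map_zsmul, map_nsmul, map_add, map_sub, rho_iota, gs]
    module
  have pg : ∀ (c : GaussianInt) {y}, y ∈ PT (actP P.sI) (actP P.sR) →
      gs (actP P.sI) c y ∈ PT (actP P.sI) (actP P.sR) := fun c y h =>
    add_mem (zsmul_mem h _) (zsmul_mem (pι h) _)
  rw [e1, six _ (nsmul_mem (sub_mem (add_mem m1 (pg _ m2))
    (pg _ (pι (sub_mem (pρ hA.2) (pρ (pρ hA.2)))))) 2)] at h3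
  have h4 := congrArg (actP r) h3
  rw [map_nsmul, map_nsmul, map_sub, map_add, gs_comm _ _ (hι _), gs_comm _ _ (hι _), rr, hι,
    map_sub, hρ, hρ, hρ, map_zero, smul_smul, nsmul_sub, sub_eq_zero] at h4
  exact h4

end

section
variable {g : ℚ} (X : F.Cfg g)

theorem R_iota (σ : GQ) (y : Pc Qb X.P.FF) :
    actP (X.R σ) (actP X.P.sI y) = actP X.P.sI (actP (X.R σ) y) :=
  act_comm (F.Tw.rr_iota (X.s σ)) y

theorem R_rho (σ : GQ) (y : Pc Qb X.P.FF) :
    actP (X.R σ) (actP X.P.sR y) = actP X.P.sR (actP (X.R σ) y) :=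
  act_comm (F.Tw.rr_rho (X.s σ)) y

theorem kc : KC := by
  rintro g X p b ⟨φ, e, h1, h2⟩
  exact ⟨φ, _, h1, fun n hn z hz hA => kc0 (X.R φ) (R_iota X φ) (R_rho X φ)
    (fun h => hn (by rw [h]; exact dvd_zero p)) (h2 n hn) hz hA⟩

end

end Vale.Agent.P027M.B2
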